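import Vale.Agent.P336.R2.H746.CylSpec

/-!
# P336: the header of the words of the explicit language
-/

namespace Vale.Agent.P336.Cyl

open Finset

section decode

variable {N q p ρ r : ℕ} (s : Fin r → ZMod 2) (x : Fin (N - (2 * q + r)) → ZMod 2)

/-- the bits of the word -/
theorem bit_word {i : ℕ} (hi : i < N) :
    bit (List.ofFn (word N q p ρ r s x)) i = word N q p ρ r s x ⟨i, hi⟩ := by
  unfold bit
  rw [List.getD_eq_getElem _ _ (by simpa using hi)]
  simp

theorem count_take_decide (w : List Bool) (a q p : ℕ) (hp : p ≤ q) (hq : a + q ≤ w.length)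
    (h : ∀ i < q, bit w (a + i) = decide (i < p)) :
    ((w.drop a).take q).count true = p := by
  have e : (w.drop a).take q = (List.range q).map (fun i => decide (i < p)) := by
    apply List.ext_getElem
    · simp
      omega
    · intro i h1 h2
      have hi : i < q := by simpa using h2
      have h3 := h i hi
      unfold bit at h3
      rw [List.getD_eq_getElem _ _ (by omega)] at h3
      simpa using h3
  rw [e]
  clear e h hq
  obtain ⟨k, rfl⟩ := Nat.exists_eq_add_of_le hp
  rw [List.range_add, List.map_append, List.count_append]
  have e1 : (List.range p).map (fun i => decide (i < p)) = List.replicate p true := by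
    apply List.ext_getElem
    · simp
    · intro i h1 h2
      have : i < p := by simpa using h2
      simp [this]
  have e2 : ((List.range k).map (fun i => p + i)).map (fun i => decide (i < p)) =
      List.replicate k false := by
    apply List.ext_getElem
    · simp
    · intro i h1 h2
      simp
  rw [e1, e2]
  simp [List.count_replicate]

theorem dec_p (hp : p ≤ q) (hN : 2 * q + r ≤ N) :
    ((List.ofFn (word N q p ρ r s x)).take q).count true = p := by
  have := count_take_decide (List.ofFn (word N q p ρ r s x)) 0 q p hp (by simp; omega) (by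
    intro i hi
    rw [zero_add, bit_word s x (by omega)]
    simp only [word, hi, if_true])
  simpa using this

theorem dec_rho (hρ : ρ ≤ q) (hN : 2 * q + r ≤ N) :
    (((List.ofFn (word N q p ρ r s x)).drop q).take q).count true = ρ := by
  refine count_take_decide (List.ofFn (word N q p ρ r s x)) q q ρ hρ (by simp; omega) ?_
  intro i hi
  rw [bit_word s x (by omega)]
  have h1 : ¬ (q + i < q) := by omega
  have h2 : q + i < 2 * q := by omega
  have h3 : q + i - q = i := by omega
  simp only [word, h1, h2, if_false, if_true, h3]

theorem dec_s (hN : 2 * q + r ≤ N) (d : Fin r) :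
    bit (List.ofFn (word N q p ρ r s x)) (2 * q + d) = decide (s d = 1) := by
  have hd := d.2
  rw [bit_word s x (by omega)]
  have h1 : ¬ (2 * q + (d : ℕ) < q) := by omega
  have h2 : ¬ (2 * q + (d : ℕ) < 2 * q) := by omega
  have h3 : 2 * q + (d : ℕ) - 2 * q = d := by omega
  simp only [word, h1, h2, if_false, h3, d.2, dif_pos]

theorem dec_x (hN : 2 * q + r ≤ N) (v : Fin (N - (2 * q + r))) :
    bit (List.ofFn (word N q p ρ r s x)) (2 * q + r + v) = decide (x v = 1) := by
  have hv := v.2
  rw [bit_word s x (by omega)]
  have h1 : ¬ (2 * q + r + (v : ℕ) < q) := by omega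
  have h2 : ¬ (2 * q + r + (v : ℕ) < 2 * q) := by omega
  have h3 : ¬ (2 * q + r + (v : ℕ) - 2 * q < r) := by omega
  have h4 : 2 * q + r + (v : ℕ) - (2 * q + r) = v := by omega
  simp only [word, h1, h2, h3, if_false, dif_neg, not_false_eq_true, h4, v.2, dif_pos]

/-- the value of the word -/
theorem value_word (hq : q = root N) (hr : r = p * (ρ * q)) (hp : p ≤ q) (hρ : ρ ≤ q)
    (hN : 2 * q + r ≤ N) :
    value (List.ofFn (word N q p ρ r s x)) = ∑ d ∈ range r,
      (bit (List.ofFn (word N q p ρ r s x)) (2 * q + d) &&
        bit (table (List.ofFn (word N q p ρ r s x)) (2 * q + r) r p (N - (2 * q + r)))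
          (p * r + d)).toNat := by
  unfold value
  rw [List.length_ofFn, ← hq, dec_p s x hp hN, dec_rho s x hρ hN, ← hr]
  unfold valueAt
  rw [List.length_ofFn]

end decode

end Vale.Agent.P336.Cyl
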