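import Vale.Agent.P336.R2.H184.CylDecode

/-!
# P336: the dynamic programming of the explicit language
-/

namespace Vale.Agent.P336.Cyl

open Finset

/-- a bit as an element of the field -/
def bz (b : Bool) : ZMod 2 := if b then 1 else 0

theorem bz_xor (a b : Bool) : bz (xor a b) = bz a + bz b := by cases a <;> cases b <;> decide

theorem bz_and (a b : Bool) : bz (a && b) = bz a * bz b := by cases a <;> cases b <;> decide

theorem bz_toNat (a : Bool) : ((a.toNat : ℕ) : ZMod 2) = bz a := by cases a <;> decide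

theorem bz_decide (a : ZMod 2) : bz (decide (a = 1)) = a := by revert a; decide

/-- the sum over the `k`-element subsets of `{0, …, n - 1}` with sum `d` modulo `r` -/
def cnt (r : ℕ) (X : ℕ → ZMod 2) (k d n : ℕ) : ZMod 2 :=
  ∑ T ∈ (range n).powersetCard k, if (∑ v ∈ T, v) % r = d then ∏ v ∈ T, X v else 0

theorem mod_iff {r n S d : ℕ} (hr : 0 < r) (hd : d < r) :
    (n + S) % r = d ↔ S % r = (d + (r - n % r)) % r := by
  have hn := Nat.mod_lt n hr
  constructor
  · intro h
    have h1 : n + S ≡ d [MOD r] := by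
      unfold Nat.ModEq
      rw [h, Nat.mod_eq_of_lt hd]
    have h2 : n % r + S ≡ d [MOD r] := ((Nat.mod_modEq n r).add_right S).trans h1
    have h3 : n % r + S + (r - n % r) ≡ d + (r - n % r) [MOD r] := h2.add_right _
    have h4 : n % r + S + (r - n % r) = S + r := by omega
    rw [h4] at h3
    have h5 : S + r ≡ S [MOD r] := by
      unfold Nat.ModEq
      exact Nat.add_mod_right S r
    exact h5.symm.trans h3
  · intro h
    have h1 : S ≡ d + (r - n % r) [MOD r] := h
    have h2 : n + S ≡ n % r + (d + (r - n % r)) [MOD r] := (Nat.mod_modEq n r).symm.add h1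
    have h3 : n % r + (d + (r - n % r)) = d + r := by omega
    rw [h3] at h2
    have h4 : (n + S) % r = (d + r) % r := h2
    rw [h4, Nat.add_mod_right, Nat.mod_eq_of_lt hd]

theorem cnt_zero_succ (r : ℕ) (X : ℕ → ZMod 2) (d n : ℕ) :
    cnt r X 0 d (n + 1) = cnt r X 0 d n := by
  unfold cnt
  simp only [powersetCard_zero, sum_singleton]

theorem cnt_succ_succ {r : ℕ} (hr : 0 < r) (X : ℕ → ZMod 2) (k n : ℕ) {d : ℕ} (hd : d < r) :
    cnt r X (k + 1) d (n + 1) =
      cnt r X (k + 1) d n + X n * cnt r X k ((d + (r - n % r)) % r) n := by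
  have hn : n ∉ range n := by simp
  unfold cnt
  rw [range_add_one, powersetCard_succ_insert hn, sum_union, sum_image]
  · congr 1
    rw [mul_sum]
    refine sum_congr rfl fun T hT => ?_
    have hnT : n ∉ T := fun h => hn ((mem_powersetCard.1 hT).1 h)
    rw [sum_insert hnT, prod_insert hnT]
    by_cases h : (n + ∑ v ∈ T, v) % r = d
    · rw [if_pos h, if_pos ((mod_iff hr hd).1 h)]
    · rw [if_neg h, if_neg (fun h' => h ((mod_iff hr hd).2 h')), mul_zero]
  · intro T hT T' hT' h
    have hnT : n ∉ T := fun h => hn ((mem_powersetCard.1 (mem_coe.1 hT)).1 h)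
    have hnT' : n ∉ T' := fun h => hn ((mem_powersetCard.1 (mem_coe.1 hT')).1 h)
    have h1 : (insert n T).erase n = (insert n T').erase n := congrArg (fun s => s.erase n) h
    rwa [erase_insert hnT, erase_insert hnT'] at h1
  · rw [disjoint_left]
    intro T hT hT'
    obtain ⟨T', -, rfl⟩ := mem_image.1 hT'
    exact hn ((mem_powersetCard.1 hT).1 (mem_insert_self n T'))

theorem table_succ (w : List Bool) (o r p n : ℕ) :
    table w o r p (n + 1) = step w o r p (table w o r p n) n := by
  unfold table
  rw [List.range_succ, List.foldl_append]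
  rfl

theorem bit_step (w : List Bool) (o r p : ℕ) (c : List Bool) (v : ℕ) {i : ℕ}
    (hi : i < (p + 1) * r) :
    bit (step w o r p c v) i = xor (bit c i) (decide (r ≤ i) &&
      (bit w (o + v) && bit c ((i / r - 1) * r + (i % r + (r - v % r)) % r))) := by
  unfold step
  rw [bit, List.getD_eq_getElem _ _ (by simpa using hi)]
  simp only [List.getElem_map, List.getElem_range]

/-- the table of the dynamic programming -/
theorem bz_table (w : List Bool) (o p n : ℕ) {r : ℕ} (hr : 0 < r) :
    ∀ k d : ℕ, k ≤ p → d < r →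
      bz (bit (table w o r p n) (k * r + d)) = cnt r (fun v => bz (bit w (o + v))) k d n := by
  induction n with
  | zero =>
    intro k d _ hd
    unfold table cnt
    rw [List.range_zero, List.foldl_nil]
    rcases Nat.eq_zero_or_pos k with rfl | hk
    · rw [powersetCard_zero, sum_singleton, sum_empty, prod_empty, Nat.zero_mod]
      rcases Nat.eq_zero_or_pos d with rfl | hd0
      · simp [bit, bz]
      · rw [if_neg (by omega)]
        obtain ⟨e, rfl⟩ : ∃ e, d = e + 1 := ⟨d - 1, by omega⟩
        simp [bit, bz]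
    · have h1 : (range 0).powersetCard k = ∅ := by
        apply powersetCard_eq_empty.2
        simpa using hk
      rw [h1, sum_empty]
      have h2 : 0 < k * r := Nat.mul_pos hk hr
      obtain ⟨e, he⟩ : ∃ e, k * r + d = e + 1 := ⟨k * r + d - 1, by omega⟩
      rw [he]
      simp [bit, bz]
  | succ n ih =>
    intro k d hk hd
    have hi : k * r + d < (p + 1) * r := by
      have : (k + 1) * r ≤ (p + 1) * r := Nat.mul_le_mul_right r (by omega)
      have h2 : (k + 1) * r = k * r + r := by ring
      omega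
    rw [table_succ, bit_step w o r p _ n hi, bz_xor, ih k d hk hd]
    rcases Nat.eq_zero_or_pos k with rfl | hk0
    · rw [cnt_zero_succ]
      have : ¬ (r ≤ 0 * r + d) := by omega
      rw [decide_eq_false this]
      simp [bz]
    · obtain ⟨j, rfl⟩ : ∃ j, k = j + 1 := ⟨k - 1, by omega⟩
      have h1 : r ≤ (j + 1) * r + d := by
        have : (j + 1) * r = j * r + r := by ring
        omega
      have h2 : ((j + 1) * r + d) / r = j + 1 := by
        rw [add_comm, Nat.add_mul_div_right _ _ hr, Nat.div_eq_of_lt hd, zero_add]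
      have h3 : ((j + 1) * r + d) % r = d := by
        rw [add_comm, Nat.add_mul_mod_self_right, Nat.mod_eq_of_lt hd]
      rw [decide_eq_true h1, h2, h3, Bool.true_and, bz_and, Nat.add_sub_cancel,
        ih j _ (by omega) (Nat.mod_lt _ hr), cnt_succ_succ hr _ j n hd]

/-- the form is the sum of the entries of the table -/
theorem form_eq {p r m : ℕ} (s : Fin r → ZMod 2) (x : Fin m → ZMod 2) (S X : ℕ → ZMod 2)
    (hS : ∀ d : Fin r, S d = s d) (hX : ∀ v : Fin m, X v = x v) :
    form p s x = ∑ d ∈ range r, S d * cnt r X p d m := by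
  have h1 : ∀ d, cnt r X p d m = ∑ T ∈ (univ : Finset (Fin m)).powersetCard p,
      if (∑ v ∈ T, (v : ℕ)) % r = d then ∏ v ∈ T, x v else 0 := by
    intro d
    unfold cnt
    have h2 : range m = (univ : Finset (Fin m)).map Fin.valEmbedding := by
      ext a
      simp only [mem_range, mem_map, mem_univ, true_and, Fin.valEmbedding_apply]
      exact ⟨fun h => ⟨⟨a, h⟩, rfl⟩, fun ⟨b, hb⟩ => hb ▸ b.2⟩
    rw [h2, powersetCard_map, sum_map]
    refine sum_congr rfl fun T _ => ?_
    simp only [RelEmbedding.coe_toEmbedding, mapEmbedding_apply, sum_map, prod_map,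
      Fin.valEmbedding_apply, hX]
  rw [Finset.sum_range (fun d => S d * cnt r X p d m)]
  unfold form
  simp only [h1, hS, mul_sum, sum_mul]
  rw [sum_comm]
  refine sum_congr rfl fun d _ => sum_congr rfl fun T _ => ?_
  by_cases h : (d : ℕ) = (∑ v ∈ T, (v : ℕ)) % r
  · rw [if_pos h, if_pos h.symm]
  · rw [if_neg h, if_neg (fun h' => h h'.symm), zero_mul, mul_zero]

/-- **row (B)** -/
theorem mem_lang_word {N q p ρ r : ℕ} (hq : q = root N) (hr : r = p * (ρ * q)) (hp : p ≤ q)
    (hρ : ρ ≤ q) (hr0 : 0 < r) (hN : 2 * q + r ≤ N) (s : Fin r → ZMod 2)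
    (x : Fin (N - (2 * q + r)) → ZMod 2) :
    List.ofFn (word N q p ρ r s x) ∈ lang ↔ form p s x = 1 := by
  have h1 : ((value (List.ofFn (word N q p ρ r s x)) : ℕ) : ZMod 2) = form p s x := by
    rw [value_word s x hq hr hp hρ hN, Nat.cast_sum,
      form_eq s x (fun d => bz (bit (List.ofFn (word N q p ρ r s x)) (2 * q + d)))
        (fun v => bz (bit (List.ofFn (word N q p ρ r s x)) (2 * q + r + v)))
        (fun d => by rw [dec_s s x hN d, bz_decide]) (fun v => by rw [dec_x s x hN v, bz_decide])]
    refine sum_congr rfl fun d hd => ?_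
    rw [bz_toNat, bz_and, bz_table _ _ p _ hr0 p d le_rfl (mem_range.1 hd)]
  change value (List.ofFn (word N q p ρ r s x)) % 2 = 1 ↔ _
  rw [← h1, ZMod.natCast_eq_one_iff_odd, Nat.odd_iff]

end Vale.Agent.P336.Cyl
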